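import Vale.Agent.P022.H527.CfXM
import Vale.Agent.P022.H567.Cft

/-!
P022-CFT, block [CRS]: the crossing of the norms.
-/

open TensorProduct

noncomputable section

namespace Vale.Agent.P022.H527

section
variable {K L L' E : Type} [Field K] [Field L] [Field L'] [Field E] [Algebra K L] [Algebra K L']
  [Algebra K E] [Algebra L E] [Algebra L' E] [IsScalarTower K L E] [IsScalarTower K L' E]
  {R : Type} [Field R] [Algebra K R]

theorem tw_eq (g : L ≃ₐ[K] L) : C.tw R g = act R g := rfl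

theorem inc_prod' {n : ℕ} {g : L ≃ₐ[K] L} {g' : E ≃ₐ[K] E}
    (h : ∀ x : L, g' (algebraMap L E x) = algebraMap L E (g x)) (y : R ⊗[K] L) :
    inc K R L E (∏ i ∈ Finset.range n, act R (g ^ i) y) =
      ∏ i ∈ Finset.range n, act R (g' ^ i) (inc K R L E y) := by
  rw [map_prod]
  refine Finset.prod_congr rfl fun i hi => ?_
  refine inc_act (g ^ i) (g' ^ i) ?_ y
  intro x
  clear hi
  induction i with
  | zero => rfl
  | succ i ih =>
    rw [pow_succ', pow_succ']
    show algebraMap L E (g ((g ^ i) x)) = g' ((g' ^ i) (algebraMap L E x))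
    rw [← h, ih]

/-- one direction of the comparison of local norms -/
theorem local_dir {s s' : E ≃ₐ[K] E} {n n' : ℕ} {σ : L ≃ₐ[K] L} {σ' : L' ≃ₐ[K] L'} (hn : 0 < n)
    (hc : Commute s s') (hs' : s' ^ n' = 1)
    (sL : ∀ x : L, s (algebraMap L E x) = algebraMap L E (σ x))
    (s'L : ∀ x : L, s' (algebraMap L E x) = algebraMap L E x)
    (s'L' : ∀ x : L', s' (algebraMap L' E x) = algebraMap L' E (σ' x))
    (fix : ∀ x : E, s x = x ↔ x ∈ Set.range (algebraMap L' E))
    (hH : H90 (actU R s) n) {γ δ : E} (hγ : γ ≠ 0) (hδ : δ ≠ 0) {a b : K} (ha : a ≠ 0)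
    (h1 : ∏ i ∈ Finset.range n, (s ^ i) γ = algebraMap K E a) (h2 : s' γ * δ = γ * s δ)
    (h3 : ∏ i ∈ Finset.range n', (s' ^ i) δ = algebraMap K E b)
    (hN : C.Nm σ n R a) : C.Nm σ' n' R b := by
  obtain ⟨yL, hyL⟩ := hN
  simp only [tw_eq] at hyL
  have e1 := inc_prod' (R := R) (n := n) sL yL
  rw [hyL, inc_algebraMap] at e1
  have hunit : IsUnit (algebraMap K (R ⊗[K] E) a) := (IsUnit.mk0 a ha).map _
  have hyLu : IsUnit (inc K R L E yL) := by
    refine isUnit_of_dvd_unit ?_ hunit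
    rw [e1]
    have e2 := Finset.dvd_prod_of_mem (fun i => act R (s ^ i) (inc K R L E yL))
      (Finset.mem_range.2 hn)
    simpa [act_one] using e2
  obtain ⟨yLu, hyLu⟩ := hyLu
  let j : Eˣ →* (R ⊗[K] E)ˣ := Units.map
    ((Algebra.TensorProduct.includeRight : E →ₐ[K] R ⊗[K] E) : E →* R ⊗[K] E)
  have hj : ∀ x : Eˣ, ((j x : (R ⊗[K] E)ˣ) : R ⊗[K] E) = 1 ⊗ₜ (x : E) := fun x => rfl
  have hjact : ∀ (g : E ≃ₐ[K] E) (x : Eˣ), actU R g (j x) = j (actM g x) := by
    intro g x
    ext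
    rw [actU_coe, hj, hj, act_tmul, actM_coe]
  have hjnm : ∀ (g : E ≃ₐ[K] E) (k : ℕ) (x : Eˣ), nm (actU R g) k (j x) = j (nm (actM g) k x) := by
    intro g k x
    simp only [nm, map_prod]
    refine Finset.prod_congr rfl fun i _ => ?_
    rw [← actU_pow, hjact, actM_pow]
  have hcU : Commute (actU R s) (actU R s') := by
    show actU R s * actU R s' = actU R s' * actU R s
    rw [← actU_mul, ← actU_mul, hc.eq]
  have hτU : actU R s' ^ n' = 1 := by
    rw [← actU_pow, hs', actU_one]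
  have haE : algebraMap K E a ≠ 0 := fun h => ha ((map_eq_zero _).1 h)
  have hz4 : actU R s' (j (Units.mk0 γ hγ)) / j (Units.mk0 γ hγ) =
      actU R s (j (Units.mk0 δ hδ)) / j (Units.mk0 δ hδ) := by
    rw [hjact, hjact, ← map_div, ← map_div]
    congr 1
    rw [div_eq_div_iff_mul_eq_mul]
    ext
    show s' γ * δ = s δ * γ
    rw [h2, mul_comm]
  have hyL1 : nm (actU R s) n (j (Units.mk0 γ hγ)) = j (Units.mk0 _ haE) := by
    rw [hjnm]
    congr 1
    ext
    rw [nm_coe]
    exact h1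
  have hyL2 : nm (actU R s) n yLu = j (Units.mk0 _ haE) := by
    ext
    rw [nmU_coe, hyLu, ← e1, hj]
    exact (Algebra.TensorProduct.includeRight : E →ₐ[K] R ⊗[K] E).commutes a |>.symm
  have hyL3 : actU R s' yLu = yLu := by
    ext
    rw [actU_coe, hyLu]
    have := inc_act (R := R) (1 : L ≃ₐ[K] L) s' (fun x => (s'L x).symm) yL
    rw [act_one] at this
    exact this.symm
  obtain ⟨c, hc1, hc2⟩ := crossing_local hcU hτU hH hyL1 hz4 hyL2 hyL3
  obtain ⟨c', hc'⟩ := fixed (R := R) (L := L') s fix (x := (c : R ⊗[K] E))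
    (by rw [← actU_coe, hc1])
  refine ⟨c', inc_injective (M := E) ?_⟩
  simp only [tw_eq]
  rw [inc_prod' s'L', hc', ← nmU_coe, ← hc2, hjnm, hj, nm_coe, inc_algebraMap]
  rw [show ((Units.mk0 δ hδ : Eˣ) : E) = δ from rfl, h3]
  exact (Algebra.TensorProduct.includeRight : E →ₐ[K] R ⊗[K] E).commutes b

end

/-! ### consequences of the configuration -/

/-- the fixed field of a cyclic group of order the codegree -/
theorem fix_iff {K F E : Type} [Field K] [Field F] [Field E] [Algebra K F] [Algebra K E]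
    [Algebra F E] [IsScalarTower K F E] {n n' : ℕ} (hn : 0 < n) (hn' : 0 < n') (s : E ≃ₐ[K] E)
    (ho : orderOf s = n) (hF : Module.finrank K F = n') (hE : Module.finrank K E = n * n')
    (hs : ∀ x : F, s (algebraMap F E x) = algebraMap F E x) (x : E) :
    s x = x ↔ x ∈ Set.range (algebraMap F E) := by
  refine ⟨fun hx => ?_, ?_⟩
  swap
  · rintro ⟨y, rfl⟩
    exact hs y
  have : FiniteDimensional K E := Module.finite_of_finrank_pos (by rw [hE]; positivity)
  let Φ := IntermediateField.fixedField (Subgroup.zpowers s)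
  have h1 : Module.finrank Φ E = n := by
    rw [IntermediateField.finrank_fixedField_eq_card, Nat.card_zpowers, ho]
  have h2 : Module.finrank K Φ = n' := by
    have h3 := Module.finrank_mul_finrank K Φ E
    rw [h1, hE, mul_comm] at h3
    exact Nat.eq_of_mul_eq_mul_left hn h3
  let Λ := (IsScalarTower.toAlgHom K F E).fieldRange
  have h4 : Module.finrank K Λ = n' := by
    rw [← hF]
    exact (LinearEquiv.finrank_eq
      (AlgEquiv.ofInjectiveField (IsScalarTower.toAlgHom K F E)).toLinearEquiv).symm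
  have hpow : ∀ (g : E ≃ₐ[K] E), g ∈ Subgroup.zpowers s → ∀ y : E, s y = y → g y = y := by
    intro g hg y hy
    obtain ⟨k, rfl⟩ := hg
    have h5 : s ∈ MulAction.stabilizer (E ≃ₐ[K] E) y := hy
    exact Subgroup.zpow_mem _ h5 k
  have h5 : Λ ≤ Φ := by
    rintro _ ⟨y, rfl⟩
    rw [IntermediateField.mem_fixedField_iff]
    intro g hg
    exact hpow g hg _ (hs y)
  have h6 : Λ = Φ := IntermediateField.eq_of_le_of_finrank_eq h5 (by rw [h4, h2])
  have h7 : x ∈ Φ := by
    rw [IntermediateField.mem_fixedField_iff]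
    intro g hg
    exact hpow g hg x hx
  rw [← h6] at h7
  obtain ⟨y, hy⟩ := h7
  exact ⟨y, hy⟩

section
variable {K L L' E : Type} [Field K] [Field L] [Field L'] [Field E] [Algebra K L] [Algebra K L']
  [Algebra K E] [Algebra L E] [Algebra L' E] [IsScalarTower K L E] [IsScalarTower K L' E]
  {n n' : ℕ} {σ : L ≃ₐ[K] L} {σ' : L' ≃ₐ[K] L'} {s s' : E ≃ₐ[K] E}

omit [IsScalarTower K L E] in
theorem pow_res {g : L ≃ₐ[K] L} {g' : E ≃ₐ[K] E}
    (h : ∀ x : L, g' (algebraMap L E x) = algebraMap L E (g x)) (i : ℕ) (x : L) :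
    (g' ^ i) (algebraMap L E x) = algebraMap L E ((g ^ i) x) := by
  induction i with
  | zero => rfl
  | succ i ih =>
    rw [pow_succ', pow_succ']
    show g' ((g' ^ i) (algebraMap L E x)) = algebraMap L E (g ((g ^ i) x))
    rw [ih, h]

theorem cr_order (C : C.Cross K n n' σ σ' s s') : orderOf s = n ∧ orderOf s' = n' := by
  have h1 : ∀ k, s ^ k = 1 ↔ σ ^ k = 1 := by
    intro k
    constructor
    · intro h
      ext x
      have := pow_res C.sL k x
      rw [h] at this
      exact ((algebraMap L E).injective this).symm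
    · intro h
      refine C.ext _ (fun x => ?_) (fun x => ?_)
      · rw [pow_res C.sL, h]; rfl
      · rw [pow_res (g := (1 : L' ≃ₐ[K] L')) C.sL', one_pow]; rfl
  have h2 : ∀ k, s' ^ k = 1 ↔ σ' ^ k = 1 := by
    intro k
    constructor
    · intro h
      ext x
      have := pow_res C.s'L' k x
      rw [h] at this
      exact ((algebraMap L' E).injective this).symm
    · intro h
      refine C.ext _ (fun x => ?_) (fun x => ?_)
      · rw [pow_res (g := (1 : L ≃ₐ[K] L)) C.s'L, one_pow]; rfl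
      · rw [pow_res C.s'L', h]; rfl
  constructor
  · rw [← C.cyc.ord]
    exact Nat.dvd_antisymm (orderOf_dvd_of_pow_eq_one ((h1 _).2 (pow_orderOf_eq_one σ)))
      (orderOf_dvd_of_pow_eq_one ((h1 _).1 (pow_orderOf_eq_one s)))
  · rw [← C.cyc'.ord]
    exact Nat.dvd_antisymm (orderOf_dvd_of_pow_eq_one ((h2 _).2 (pow_orderOf_eq_one σ')))
      (orderOf_dvd_of_pow_eq_one ((h2 _).1 (pow_orderOf_eq_one s')))

theorem cr_comm (C : C.Cross K n n' σ σ' s s') : Commute s s' := by
  have h := C.ext ((s' * s)⁻¹ * (s * s')) (fun x => ?_) (fun x => ?_)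
  · exact (inv_mul_eq_one.1 h).symm
  · show (s' * s)⁻¹ (s (s' (algebraMap L E x))) = _
    rw [C.s'L, C.sL]
    have : (s' * s) (algebraMap L E x) = algebraMap L E (σ x) := by
      show s' (s (algebraMap L E x)) = _
      rw [C.sL, C.s'L]
    rw [← this]
    exact AlgEquiv.symm_apply_apply (s' * s) _
  · show (s' * s)⁻¹ (s (s' (algebraMap L' E x))) = _
    rw [C.s'L', C.sL']
    have : (s' * s) (algebraMap L' E x) = algebraMap L' E (σ' x) := by
      show s' (s (algebraMap L' E x)) = _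
      rw [C.sL', C.s'L']
    rw [← this]
    exact AlgEquiv.symm_apply_apply (s' * s) _

theorem cr_fix (C : C.Cross K n n' σ σ' s s') (x : E) :
    s x = x ↔ x ∈ Set.range (algebraMap L' E) :=
  fix_iff C.cyc.pos C.cyc'.pos s (cr_order C).1 C.cyc'.rank C.rank C.sL' x

theorem cr_fix' (C : C.Cross K n n' σ σ' s s') (x : E) :
    s' x = x ↔ x ∈ Set.range (algebraMap L E) :=
  fix_iff C.cyc'.pos C.cyc.pos s' (cr_order C).2 C.cyc.rank (by rw [C.rank, mul_comm]) C.s'L x

theorem cr_fixK (C : C.Cross K n n' σ σ' s s') {x : E} (h : s x = x) (h' : s' x = x) :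
    x ∈ Set.range (algebraMap K E) := by
  obtain ⟨y, rfl⟩ := (cr_fix C x).1 h
  rw [C.s'L'] at h'
  have h1 : σ' y = y := (algebraMap L' E).injective h'
  have h2 := (fix_iff (F := K) C.cyc'.pos one_pos σ' C.cyc'.ord (Module.finrank_self K)
    (by rw [C.cyc'.rank, mul_one]) (fun z => σ'.commutes z) y).1 h1
  obtain ⟨z, rfl⟩ := h2
  exact ⟨z, by rw [← IsScalarTower.algebraMap_apply]⟩

end

/-- Hilbert 90 in the letters of `H527` -/
theorem h90_of (H : C.H90Stmt) {K E : Type} [Field K] [Field E] [Algebra K E]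
    [FiniteDimensional K E] (R : Type) [Field R] [Infinite R] [Algebra K R] (s : E ≃ₐ[K] E)
    {n : ℕ} (hn : 0 < n) (ho : orderOf s = n) : H90 (actU R s) n := by
  intro x hx
  have h1 : ∏ i ∈ Finset.range n, ((act R s) ^ i) (x : R ⊗[K] E) = 1 := by
    have h2 : ((nm (actU R s) n x : (R ⊗[K] E)ˣ) : R ⊗[K] E) = 1 := by rw [hx]; rfl
    rw [nmU_coe] at h2
    rw [← h2]
    refine Finset.prod_congr rfl fun i _ => ?_
    rw [act_pow]
    exact (congrFun (AlgEquiv.coe_pow _ _) _)
  have ho' : orderOf (s : E ≃+* E) = n := by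
    rw [← ho]
    refine orderOf_injective (G := E ≃ₐ[K] E) (H := E ≃+* E)
      ⟨⟨fun g => (g : E ≃+* E), rfl⟩, fun _ _ => rfl⟩ ?_ s
    intro g h hgh
    ext y
    exact DFunLike.congr_fun (F := E ≃+* E) hgh y
  obtain ⟨e, he⟩ := H R (R ⊗[K] E) E
    ((Algebra.TensorProduct.includeRight : E →ₐ[K] R ⊗[K] E) : E →+* R ⊗[K] E) (act R s)
    (s : E ≃+* E) n hn (fun y => act_tmul s 1 y) ho' (by
      ext y
      show ((act R s) ^ n) y = y
      rw [AlgEquiv.coe_pow, ← act_pow, ← ho, pow_orderOf_eq_one, act_one]) x h1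
  refine ⟨e, ?_⟩
  rw [eq_div_iff_mul_eq']
  ext
  exact he.symm

/-- **[CRS]** -/
theorem CRS (H : C.H90Stmt) : C.CRSStmt := by
  intro K L L' E _ _ _ _ _ _ _ _ _ _ _ _ _ _ _ n n' σ σ' s s' C a ha γ hγ
  have hE : FiniteDimensional K E :=
    Module.finite_of_finrank_pos (by rw [C.rank]; exact Nat.mul_pos C.cyc.pos C.cyc'.pos)
  obtain ⟨hs, hs'⟩ := cr_order C
  have hcomm := cr_comm C
  have hγ0 : γ ≠ 0 := by
    intro h0
    rw [h0] at hγ
    simp only [map_zero, Finset.prod_const, Finset.card_range, zero_pow C.cyc.pos.ne'] at hγ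
    exact ha ((map_eq_zero _).1 hγ.symm)
  have haE : algebraMap K E a ≠ 0 := fun h => ha ((map_eq_zero _).1 h)
  have hyU : nm (actM s) n (Units.mk0 γ hγ0) = Units.mk0 _ haE := by
    ext
    rw [nm_coe]
    exact hγ
  have hcM : Commute (actM s) (actM s') := by
    show actM s * actM s' = actM s' * actM s
    ext x
    exact congrArg (fun f : E ≃ₐ[K] E => f x) hcomm.eq
  have hτM : actM s' ^ n' = 1 := by
    rw [← actM_pow, ← hs', pow_orderOf_eq_one]
    ext x
    rfl
  have hατ : actM s' (Units.mk0 _ haE) = Units.mk0 _ haE := by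
    ext
    exact s'.commutes a
  obtain ⟨δ, hz1, hz2, hz3⟩ := crossing hcM hτM (h90_field s hs C.cyc.pos) hyU hατ
  obtain ⟨b, hb⟩ := cr_fixK C
    (congrArg (fun u : Eˣ => (u : E)) hz2) (congrArg (fun u : Eˣ => (u : E)) hz3)
  have hb0 : b ≠ 0 := by
    intro h0
    rw [h0, map_zero] at hb
    exact (nm (actM s') n' δ).ne_zero hb.symm
  have h2 : s' γ * δ = γ * s δ := by
    rw [div_eq_div_iff_mul_eq_mul] at hz1
    have h3 : s' γ * (δ : E) = s δ * γ := congrArg (fun u : Eˣ => (u : E)) hz1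
    rw [h3, mul_comm]
  have h3 : ∏ i ∈ Finset.range n', (s' ^ i) (δ : E) = algebraMap K E b := by
    rw [← nm_coe, hb]
  refine ⟨δ, b, δ.ne_zero, hb0, h2, h3, ?_⟩
  intro R _ _ _
  constructor
  · exact local_dir C.cyc.pos hcomm (by rw [← hs', pow_orderOf_eq_one]) C.sL C.s'L C.s'L'
      (cr_fix C) (h90_of H R s C.cyc.pos hs) hγ0 δ.ne_zero ha hγ h2 h3
  · exact local_dir C.cyc'.pos hcomm.symm (by rw [← hs, pow_orderOf_eq_one]) C.s'L' C.sL' C.sL
      (cr_fix' C) (h90_of H R s' C.cyc'.pos hs') δ.ne_zero hγ0 hb0 h3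
      (by rw [mul_comm (s δ), mul_comm (δ : E)]; exact h2.symm) hγ

end Vale.Agent.P022.H527
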