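import Mathlib

/-!
P022-CFT, block [X]: the crossing, letter-free.

`G` is a commutative group with two commuting automorphisms `σ`, `τ` (the units of `M`, or the
units of `K_v ⊗ M`), `nm σ n x = ∏_(i < n) σ^i x`.
-/

noncomputable section

namespace Vale.Agent.P022.H527

variable {G : Type*} [CommGroup G]

/-- the norm of the cyclic group of order `n` generated by `σ` -/
def nm (σ : MulAut G) (n : ℕ) (x : G) : G := ∏ i ∈ Finset.range n, (σ ^ i) x

/-- Hilbert 90 for the cyclic group of order `n` generated by `σ` -/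
def H90 (σ : MulAut G) (n : ℕ) : Prop := ∀ x : G, nm σ n x = 1 → ∃ u : G, x = σ u / u

variable {σ τ : MulAut G} {n N : ℕ}

theorem nm_mul (x y : G) : nm σ n (x * y) = nm σ n x * nm σ n y := by
  simp only [nm, map_mul, Finset.prod_mul_distrib]

theorem nm_one : nm σ n (1 : G) = 1 := by
  simp only [nm, map_one, Finset.prod_const_one]

theorem nm_inv (x : G) : nm σ n x⁻¹ = (nm σ n x)⁻¹ := by
  simp only [nm, map_inv, Finset.prod_inv_distrib]

theorem nm_div (x y : G) : nm σ n (x / y) = nm σ n x / nm σ n y := by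
  rw [div_eq_mul_inv, nm_mul, nm_inv, ← div_eq_mul_inv]

theorem map_nm {φ : MulAut G} (h : Commute φ σ) (x : G) : φ (nm σ n x) = nm σ n (φ x) := by
  simp only [nm, map_prod]
  refine Finset.prod_congr rfl fun i _ => ?_
  have h1 : φ * σ ^ i = σ ^ i * φ := (h.pow_right i).eq
  have h2 := congrArg (fun f : MulAut G => f x) h1
  exact h2

theorem apply_nm (hσ : σ ^ n = 1) (x : G) : σ (nm σ n x) = nm σ n x := by
  rw [map_nm (Commute.refl σ)]
  simp only [nm]
  have h1 : ∀ i, (σ ^ i) (σ x) = (σ ^ (i + 1)) x := fun i => by rw [pow_succ]; rfl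
  rw [Finset.prod_congr rfl fun i _ => h1 i]
  have h2 := Finset.prod_range_succ (fun i => (σ ^ i) x) n
  have h3 := Finset.prod_range_succ' (fun i => (σ ^ i) x) n
  rw [h2] at h3
  have h4 : (σ ^ n) x = (σ ^ 0) x := by rw [hσ, pow_zero]
  rw [h4] at h3
  exact (mul_right_cancel h3).symm

theorem nm_fixed {x : G} (h : σ x = x) : nm σ n x = x ^ n := by
  have : ∀ i, (σ ^ i) x = x := by
    intro i
    induction i with
    | zero => rfl
    | succ i ih => rw [pow_succ]; show (σ ^ i) (σ x) = x; rw [h, ih]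
  simp only [nm, this, Finset.prod_const, Finset.card_range]

/-- the norm of a coboundary -/
theorem nm_cob (hσ : σ ^ n = 1) (x : G) : nm σ n (σ x / x) = 1 := by
  rw [nm_div, ← map_nm (Commute.refl σ), apply_nm hσ, div_self']

/-- **[X], global part.** -/
theorem crossing (h : Commute σ τ) (hτ : τ ^ N = 1) (H : H90 σ n) {α y : G}
    (hy : nm σ n y = α) (hα : τ α = α) :
    ∃ z : G, τ y / y = σ z / z ∧ σ (nm τ N z) = nm τ N z ∧ τ (nm τ N z) = nm τ N z := by
  have h1 : nm σ n (τ y / y) = 1 := by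
    rw [nm_div, ← map_nm h.symm, hy, hα, div_self']
  obtain ⟨z, hz⟩ := H _ h1
  refine ⟨z, hz, ?_, apply_nm hτ z⟩
  have h2 : nm τ N (σ z / z) = 1 := by rw [← hz, nm_cob hτ]
  rw [nm_div, ← map_nm h, div_eq_one] at h2
  exact h2

/-- **[X], local part.** -/
theorem crossing_local (h : Commute σ τ) (hτ : τ ^ N = 1) (H : H90 σ n)
    {α y z yL : G} (hy : nm σ n y = α) (hz : τ y / y = σ z / z) (hL : nm σ n yL = α)
    (hyL : τ yL = yL) : ∃ c : G, σ c = c ∧ nm τ N z = nm τ N c := by
  have h1 : nm σ n (y / yL) = 1 := by rw [nm_div, hy, hL, div_self']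
  obtain ⟨u, hu⟩ := H _ h1
  have h2 : τ (y / yL) / (y / yL) = τ y / y := by
    rw [map_div, hyL, div_div_div_cancel_right]
  have h3 : σ (τ u) = τ (σ u) := by
    have := congrArg (fun f : MulAut G => f u) h.eq
    exact this
  have h4 : σ z / z = σ (τ u / u) / (τ u / u) := by
    rw [← hz, ← h2, hu, map_div, map_div, h3]
    rw [div_div_div_comm]
  refine ⟨z / (τ u / u), ?_, ?_⟩
  · rw [map_div]
    rw [div_eq_div_iff_mul_eq_mul] at h4 ⊢
    rw [h4]
    exact mul_comm _ _
  · rw [nm_div, nm_cob hτ, div_one]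

end Vale.Agent.P022.H527
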