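import Vale.Agent.P022.H527.CfX

/-!
P022-CFT, block [X]: the crossing for fields and local norms.
-/

open scoped TensorProduct

noncomputable section

namespace Vale.Agent.P022.H527

section
variable {K : Type*} [Field K] {M : Type*} [Field M] [Algebra K M]

/-- the action of `g` on `R ⊗ M` -/
def act (R : Type*) [CommRing R] [Algebra K R] (g : M ≃ₐ[K] M) : R ⊗[K] M ≃ₐ[R] R ⊗[K] M :=
  Algebra.TensorProduct.congr AlgEquiv.refl g

variable {R : Type*} [CommRing R] [Algebra K R]

theorem act_tmul (g : M ≃ₐ[K] M) (r : R) (x : M) : act R g (r ⊗ₜ x) = r ⊗ₜ (g x) := by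
  simp [act]

theorem act_mul (g h : M ≃ₐ[K] M) (x : R ⊗[K] M) : act R (g * h) x = act R g (act R h x) := by
  induction x with
  | zero => simp
  | tmul r x => simp [act_tmul]
  | add x y hx hy => rw [map_add, map_add, map_add, hx, hy]

theorem act_one (x : R ⊗[K] M) : act R (1 : M ≃ₐ[K] M) x = x := by
  induction x with
  | zero => simp
  | tmul r x => simp [act_tmul]
  | add x y hx hy => rw [map_add, hx, hy]

theorem act_pow (g : M ≃ₐ[K] M) (i : ℕ) (x : R ⊗[K] M) : act R (g ^ i) x = (act R g)^[i] x := by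
  induction i with
  | zero => rw [pow_zero, act_one]; rfl
  | succ i ih => rw [pow_succ', act_mul, ih, Function.iterate_succ_apply']

/-- the action on units -/
def actU (R : Type*) [CommRing R] [Algebra K R] (g : M ≃ₐ[K] M) : MulAut (R ⊗[K] M)ˣ :=
  Units.mapEquiv (act R g : R ⊗[K] M ≃* R ⊗[K] M)

theorem actU_coe (g : M ≃ₐ[K] M) (x : (R ⊗[K] M)ˣ) :
    ((actU R g x : (R ⊗[K] M)ˣ) : R ⊗[K] M) = act R g x := rfl

theorem actU_mul (g h : M ≃ₐ[K] M) : actU R (g * h) = actU R g * actU R h := by
  ext x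
  exact act_mul g h (x : R ⊗[K] M)

theorem actU_one : actU R (1 : M ≃ₐ[K] M) = 1 := by
  ext x
  exact act_one (x : R ⊗[K] M)

theorem actU_pow (g : M ≃ₐ[K] M) (i : ℕ) : actU R (g ^ i) = actU R g ^ i := by
  induction i with
  | zero => rw [pow_zero, pow_zero, actU_one]
  | succ i ih => rw [pow_succ, pow_succ, actU_mul, ih]

/-- local norm: product over the whole Galois group -/
def LN (R : Type*) [CommRing R] [Algebra K R] (L : Type*) [Field L] [Algebra K L]
    [FiniteDimensional K L] (α : K) : Prop :=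
  ∃ y : R ⊗[K] L, ∏ g : L ≃ₐ[K] L, act R g y = algebraMap K (R ⊗[K] L) α

/-- the map `R ⊗ L → R ⊗ M` -/
def inc (K : Type*) [Field K] (R : Type*) [CommRing R] [Algebra K R] (L M : Type*) [Field L]
    [Algebra K L] [Field M] [Algebra K M] [Algebra L M] [IsScalarTower K L M] :
    R ⊗[K] L →ₐ[R] R ⊗[K] M :=
  Algebra.TensorProduct.map (AlgHom.id R R) (IsScalarTower.toAlgHom K L M)

end

section tower
variable {K L M : Type*} [Field K] [Field L] [Field M] [Algebra K L] [Algebra K M] [Algebra L M]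
  [IsScalarTower K L M] {R : Type*} [CommRing R] [Algebra K R]

theorem inc_tmul (r : R) (x : L) : inc K R L M (r ⊗ₜ x) = r ⊗ₜ (algebraMap L M x) := by
  simp [inc]

theorem inc_injective : Function.Injective (inc K R L M) := by
  have h : Function.Injective (IsScalarTower.toAlgHom K L M).toLinearMap :=
    (IsScalarTower.toAlgHom K L M).toRingHom.injective
  exact Module.Flat.lTensor_preserves_injective_linearMap (M := R) _ h

theorem inc_act (g : L ≃ₐ[K] L) (g' : M ≃ₐ[K] M)
    (h : ∀ x : L, algebraMap L M (g x) = g' (algebraMap L M x)) (x : R ⊗[K] L) :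
    inc K R L M (act R g x) = act R g' (inc K R L M x) := by
  induction x with
  | zero => simp
  | tmul r x => rw [act_tmul, inc_tmul, inc_tmul, act_tmul, h]
  | add x y hx hy => rw [map_add, map_add, map_add, map_add, hx, hy]

theorem inc_algebraMap (k : K) :
    inc K R L M (algebraMap K (R ⊗[K] L) k) = algebraMap K (R ⊗[K] M) k :=
  ((inc K R L M).restrictScalars K).commutes k

/-- the fixed ring -/
theorem fixed (g' : M ≃ₐ[K] M) (h : ∀ x : M, g' x = x ↔ x ∈ Set.range (algebraMap L M))
    {x : R ⊗[K] M} (hx : act R g' x = x) : ∃ y : R ⊗[K] L, inc K R L M y = x := by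
  let f : L →ₗ[K] M := (IsScalarTower.toAlgHom K L M).toLinearMap
  let g : M →ₗ[K] M := g'.toLinearMap - LinearMap.id
  have hex : Function.Exact f g := by
    intro y
    have h1 : g y = 0 ↔ g' y = y := by
      show g' y - y = 0 ↔ _
      exact sub_eq_zero
    rw [h1, h y]
    rfl
  have h2 := Module.Flat.lTensor_exact (M := R) (f := f) (g := g) hex
  have h3 : ∀ z : R ⊗[K] M, (LinearMap.lTensor R g) z = act R g' z - z := by
    intro z
    induction z with
    | zero => simp
    | tmul r z =>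
      rw [LinearMap.lTensor_tmul, act_tmul]
      show r ⊗ₜ (g' z - z) = _
      rw [TensorProduct.tmul_sub]
    | add y z hy hz => rw [map_add, map_add, hy, hz]; abel
  obtain ⟨y, hy⟩ := (h2 x).1 (by rw [h3, hx, sub_self])
  exact ⟨y, hy⟩

/-- product over a cyclic group -/
theorem prod_cyclic {G : Type*} [Group G] [Fintype G] {n : ℕ} (hn : Nat.card G = n) {g : G}
    (hg : Subgroup.zpowers g = ⊤) {A : Type*} [CommMonoid A] (f : G → A) :
    ∏ x : G, f x = ∏ i ∈ Finset.range n, f (g ^ i) := by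
  classical
  have h1 : ∀ x, x ∈ Subgroup.zpowers g := fun x => by rw [hg]; exact Subgroup.mem_top x
  have ho : orderOf g = Nat.card G := orderOf_eq_card_of_forall_mem_zpowers h1
  rw [← IsCyclic.image_range_card h1, Finset.prod_image, hn]
  intro i hi j hj hij
  rw [Finset.mem_coe, Finset.mem_range] at hi hj
  exact pow_injOn_Iio_orderOf (by rw [ho]; exact hi) (by rw [ho]; exact hj) hij

end tower

/-! ### Hilbert 90 for a field -/

section field
variable {K : Type*} [Field K] {M : Type*} [Field M] [Algebra K M]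

/-- the action on `Mˣ` -/
def actM (g : M ≃ₐ[K] M) : MulAut Mˣ := Units.mapEquiv (g : M ≃* M)

theorem actM_coe (g : M ≃ₐ[K] M) (x : Mˣ) : ((actM g x : Mˣ) : M) = g x := rfl

theorem actM_pow (g : M ≃ₐ[K] M) (i : ℕ) : actM (g ^ i) = actM g ^ i := by
  induction i with
  | zero => ext x; rfl
  | succ i ih =>
    rw [pow_succ, pow_succ, ← ih]
    ext x
    rfl

theorem nm_coe (g : M ≃ₐ[K] M) (n : ℕ) (x : Mˣ) :
    ((nm (actM g) n x : Mˣ) : M) = ∏ i ∈ Finset.range n, (g ^ i) (x : M) := by
  simp only [nm, ← actM_pow]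
  rw [Units.coe_prod]
  rfl

theorem h90_field (g : M ≃ₐ[K] M) {n : ℕ} (hn : orderOf g = n) (h0 : 0 < n) :
    H90 (actM g) n := by
  classical
  intro x hx
  have hx' : ∏ i ∈ Finset.range n, (g ^ i) (x : M) = 1 := by rw [← nm_coe, hx]; rfl
  let c : ℕ → M := fun i => ∏ j ∈ Finset.range i, (g ^ j) (x : M)
  have hc : ∀ i, (x : M) * g (c i) = c (i + 1) := by
    intro i
    simp only [c]
    rw [Finset.prod_range_succ', map_prod, mul_comm]
    congr 1
    refine Finset.prod_congr rfl fun j _ => ?_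
    rw [pow_succ']
    rfl
  have hli := linearIndependent_monoidHom M M
  have hinj : Function.Injective fun i : Fin n => ((g ^ (i : ℕ) : M ≃ₐ[K] M) : M →* M) := by
    intro i j hij
    have h1 : g ^ (i : ℕ) = g ^ (j : ℕ) := by
      ext y
      exact DFunLike.congr_fun hij y
    exact Fin.ext (pow_injOn_Iio_orderOf (by rw [hn]; exact i.2) (by rw [hn]; exact j.2) h1)
  have hli2 := hli.comp _ hinj
  obtain ⟨t, ht⟩ : ∃ t : M, ∑ i : Fin n, c i * (g ^ (i : ℕ)) t ≠ 0 := by
    by_contra hcon
    push Not at hcon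
    rw [Fintype.linearIndependent_iff] at hli2
    have h2 := hli2 (fun i => c i) (by
      funext t
      have := hcon t
      simpa [Finset.sum_apply] using this) ⟨0, h0⟩
    simp [c] at h2
  have ht' : ∑ i ∈ Finset.range n, c i * (g ^ i) t ≠ 0 := by
    rwa [Finset.sum_range]
  set u := ∑ i ∈ Finset.range n, c i * (g ^ i) t with hu
  have hg : (x : M) * g u = u := by
    rw [hu, map_sum, Finset.mul_sum]
    have h3 : ∀ i ∈ Finset.range n, (x : M) * g (c i * (g ^ i) t) =
        c (i + 1) * (g ^ (i + 1)) t := by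
      intro i _
      rw [map_mul, ← mul_assoc, hc, pow_succ']
      rfl
    rw [Finset.sum_congr rfl h3]
    have h4 := Finset.sum_range_succ (fun i => c i * (g ^ i) t) n
    have h5 := Finset.sum_range_succ' (fun i => c i * (g ^ i) t) n
    rw [h4] at h5
    have h6 : c n * (g ^ n) t = c 0 * (g ^ 0) t := by
      rw [← hn, pow_orderOf_eq_one, hn]
      simp only [c]
      rw [hx', Finset.prod_range_zero]
      simp
    rw [h6] at h5
    exact (add_right_cancel h5).symm
  refine ⟨(Units.mk0 u ht')⁻¹, ?_⟩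
  rw [map_inv, inv_div_inv, eq_div_iff_mul_eq']
  ext
  exact hg

end field

/-! ### the crossing -/

section final
variable {K L M : Type*} [Field K] [Field L] [Field M] [Algebra K L]
  [Algebra K M] [Algebra L M] [IsScalarTower K L M] [FiniteDimensional K L]

theorem nmU_coe {R : Type*} [CommRing R] [Algebra K R] (g : M ≃ₐ[K] M) (n : ℕ)
    (x : (R ⊗[K] M)ˣ) : ((nm (actU R g) n x : (R ⊗[K] M)ˣ) : R ⊗[K] M) =
      ∏ i ∈ Finset.range n, act R (g ^ i) (x : R ⊗[K] M) := by
  simp only [nm, ← actU_pow]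
  rw [Units.coe_prod]
  rfl

theorem inc_prod {R : Type*} [CommRing R] [Algebra K R] {n : ℕ}
    (hn : Nat.card (L ≃ₐ[K] L) = n) {g : L ≃ₐ[K] L} (hg : Subgroup.zpowers g = ⊤) {g' : M ≃ₐ[K] M}
    (h : ∀ x : L, algebraMap L M (g x) = g' (algebraMap L M x)) (y : R ⊗[K] L) :
    inc K R L M (∏ s : L ≃ₐ[K] L, act R s y) =
      ∏ i ∈ Finset.range n, act R (g' ^ i) (inc K R L M y) := by
  rw [prod_cyclic hn hg, map_prod]
  refine Finset.prod_congr rfl fun i hi => ?_
  refine inc_act (g ^ i) (g' ^ i) ?_ y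
  intro x
  clear hi
  induction i with
  | zero => rfl
  | succ i ih =>
    rw [pow_succ', pow_succ']
    show algebraMap L M (g ((g ^ i) x)) = g' ((g' ^ i) (algebraMap L M x))
    rw [h, ih]

end final

end Vale.Agent.P022.H527
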