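import Vale.Agent.P022.H964.Ser
import Vale.Agent.P022.H477.RDef

/-!
P022, real quadratic fields: the law of Hecke's theta series of weight one under `Γ₀(D m²)`, and
the modular form ([RMFT]).
-/

open UpperHalfPlane hiding I
open Filter Topology Matrix.SpecialLinearGroup CongruenceSubgroup Complex
open scoped MatrixGroups ModularForm Manifold Real ComplexConjugate

noncomputable section

namespace Vale.Agent.P022.H527

open Vale.Agent.P022 H352 H477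

/-- holomorphy of Hecke's theta series -/
def RHOLStmt : Prop := ∀ (a b c : ℤ) (D : ℕ) (_ : 0 < a) (_ : ¬ IsSquare D)
  (_ : b ^ 2 - 4 * a * c = D) (u : ℝ) (A : (ℤ × ℤ) ≃+ (ℤ × ℤ)) (_ : Unt a b D u A)
  (m : ℕ) (_ : 0 < m) (f : ℤ × ℤ → ℂ) (_ : Per m f) (_ : ∀ v, f (A v) = f v),
  MDifferentiable 𝓘(ℂ) 𝓘(ℂ) (fun τ : ℍ => hR a b c D u 1 f τ)

/-- boundedness of Hecke's theta series at all cusps -/
def RBDDStmt : Prop := ∀ (a b c : ℤ) (D : ℕ) (_ : 0 < a) (_ : ¬ IsSquare D)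
  (_ : b ^ 2 - 4 * a * c = D) (u : ℝ) (A : (ℤ × ℤ) ≃+ (ℤ × ℤ)) (_ : Unt a b D u A)
  (m : ℕ) (_ : 0 < m) (f : ℤ × ℤ → ℂ) (_ : Per m f) (_ : ∀ v, f (A v) = f v) (γ : SL(2, ℤ)),
  IsBoundedAtImInfty ((fun τ : ℍ => hR a b c D u 1 f τ) ∣[(1 : ℤ)] γ)

variable {a b c : ℤ} {D v D₀ : ℕ} {u : ℝ} {A : (ℤ × ℤ) ≃+ (ℤ × ℤ)} {m : ℕ} {f : ℤ × ℤ → ℂ}

theorem per_smul (hf : Per m f) (d : ℤ) : Per m (fun v => f (d • v)) := by
  intro x y
  show f (d • (x + (m : ℤ) • y)) = f (d • x)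
  rw [smul_add, smul_comm d (m : ℤ) y, hf]

theorem inv_smul (hA : ∀ v, f (A v) = f v) (d : ℤ) (x : ℤ × ℤ) :
    (fun v => f (d • v)) (A x) = (fun v => f (d • v)) x := by
  show f (d • A x) = f (d • x)
  rw [← map_zsmul, hA]

theorem im_mob {x y z d : ℤ} (hdet : x * d - y * z = 1) {w : ℂ} (hw : 0 < w.im) :
    (z * w + d : ℂ) ≠ 0 ∧ 0 < ((x * w + y) / (z * w + d) : ℂ).im ∧
      ((x * w + y) / (z * w + d) : ℂ).im = w.im / ‖(z * w + d : ℂ)‖ ^ 2 := by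
  have hne : (z * w + d : ℂ) ≠ 0 := by
    intro h0
    have h1 := congrArg Complex.im h0
    have h2 := congrArg Complex.re h0
    simp at h1 h2
    rcases h1 with h1 | h1
    · rw [h1] at h2
      have h3 : (d : ℝ) = 0 := by simpa using h2
      have h1' : z = 0 := by exact_mod_cast h1
      have h3' : d = 0 := by exact_mod_cast h3
      rw [h1', h3'] at hdet
      simp at hdet
    · exact hw.ne' h1
  have hn : 0 < ‖(z * w + d : ℂ)‖ ^ 2 := by positivity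
  have h1 : ((x * w + y) / (z * w + d) : ℂ).im = w.im / ‖(z * w + d : ℂ)‖ ^ 2 := by
    have hdet' : (x : ℝ) * d - y * z = 1 := by exact_mod_cast hdet
    rw [Complex.div_im, ← Complex.normSq_eq_norm_sq]
    have h3 : Complex.normSq (z * w + d : ℂ) ≠ 0 := by
      rw [Complex.normSq_eq_norm_sq]; exact hn.ne'
    rw [← sub_div, div_left_inj' h3]
    simp
    linear_combination w.im * hdet'
  exact ⟨hne, by rw [h1]; positivity, h1⟩

/-- the law for an odd last entry -/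
theorem law (hL : RLAW1Stmt) (hU : RUNFStmt) (ha : 0 < a)
    (hDv : D = 2 ^ v * D₀) (hD₀ : Odd D₀) (hsq : ¬ IsSquare D) (h : b ^ 2 - 4 * a * c = D)
    (hu : Unt a b D u A) (hm : 0 < m)
    (hf : Per m f) (hA : ∀ v, f (A v) = f v) {x y z d : ℤ} (hd : Odd d)
    (hdet : x * d - y * z = 1) (hz : ((D * m ^ 2 : ℕ) : ℤ) ∣ z) {w : ℂ} (hw : 0 < w.im) :
    hR a b c D u 1 f ((x * w + y) / (z * w + d)) =
      krP v D₀ d * (z * w + d) * hR a b c D u 1 (fun v => f (d • v)) w ∧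
    hR a b c D u (-1) f ((x * w + y) / (z * w + d)) =
      krP v D₀ d * (z * w + d) * hR a b c D u (-1) (fun v => f (d • v)) w := by
  obtain ⟨hne, hi, hi2⟩ := im_mob hdet hw
  have hn : 0 < ‖(z * w + d : ℂ)‖ := norm_pos_iff.2 hne
  have hsw : 0 < √w.im := Real.sqrt_pos.2 hw
  have hs : √((x * w + y) / (z * w + d) : ℂ).im * ‖(z * w + d : ℂ)‖ = √w.im := by
    rw [hi2, Real.sqrt_div' _ (by positivity), Real.sqrt_sq hn.le, div_mul_cancel₀ _ hn.ne']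
  have hs' : ((√((x * w + y) / (z * w + d) : ℂ).im : ℝ) : ℂ) * (‖(z * w + d : ℂ)‖ : ℂ) =
      ((√w.im : ℝ) : ℂ) := by
    rw [← hs]; push_cast; rfl
  have hsw' : ((√w.im : ℝ) : ℂ) ≠ 0 := by exact_mod_cast hsw.ne'
  have hsi : ((√((x * w + y) / (z * w + d) : ℂ).im : ℝ) : ℂ) ≠ 0 := by
    exact_mod_cast (Real.sqrt_pos.2 hi).ne'
  have key : ∀ t : ℝ,
      Tp a b D (Real.exp t) f ((x * w + y) / (z * w + d)) =
        (krP v D₀ d * (z * w + d) * ‖(z * w + d : ℂ)‖) *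
          (Tp a b D (Real.exp t) (fun v => f (d • v)) w) ∧
      Tm a b D (Real.exp t) f ((x * w + y) / (z * w + d)) =
        (krP v D₀ d * (z * w + d) * ‖(z * w + d : ℂ)‖) *
          (Tm a b D (Real.exp t) (fun v => f (d • v)) w) := fun t =>
    hL a b c D v D₀ ha hDv hD₀ h m hm f hf x y z d hd hdet hz _ (Real.exp_pos t) w hw
  obtain ⟨u1, u2⟩ := hU a b c D ha hsq h u A hu m hm f hf hA _ hi
  obtain ⟨v1, v2⟩ := hU a b c D ha hsq h u A hu m hm _ (per_smul hf d) (inv_smul hA d) w hw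
  rw [intervalIntegral.integral_congr fun t _ => (key t).1,
    intervalIntegral.integral_const_mul, v1] at u1
  rw [intervalIntegral.integral_congr fun t _ => (key t).2,
    intervalIntegral.integral_const_mul, v2] at u2
  have fin : ∀ {K H H' : ℂ}, K * ‖(z * w + d : ℂ)‖ * (H / (2 * (√w.im : ℝ))) =
      H' / (2 * ((√((x * w + y) / (z * w + d) : ℂ).im : ℝ) : ℂ)) → H' = K * H := by
    intro K H H' e
    rw [eq_div_iff (by simpa using hsi)] at e
    rw [← e]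
    have e2 : K * (‖(z * w + d : ℂ)‖ : ℂ) * (H / (2 * (√w.im : ℝ))) *
        (2 * ((√((x * w + y) / (z * w + d) : ℂ).im : ℝ) : ℂ)) =
        K * H * ((((√((x * w + y) / (z * w + d) : ℂ).im : ℝ) : ℂ) *
          (‖(z * w + d : ℂ)‖ : ℂ)) / (√w.im : ℝ)) := by
      ring
    rw [e2, hs', div_self hsw', mul_one]
  exact ⟨fin u1, fin u2⟩

/-! ### the character -/

theorem disc_mod (h : b ^ 2 - 4 * a * c = (D : ℤ)) : D % 4 = 0 ∨ D % 4 = 1 := by
  have h1 : b % 4 = 0 ∨ b % 4 = 1 ∨ b % 4 = 2 ∨ b % 4 = 3 := by omega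
  have h2 : b ^ 2 % 4 = 0 ∨ b ^ 2 % 4 = 1 := by
    rcases h1 with h1 | h1 | h1 | h1 <;> simp [pow_two, Int.mul_emod, h1]
  have h3 : ((D : ℕ) : ℤ) % 4 = b ^ 2 % 4 := by
    rw [← h, show b ^ 2 - 4 * a * c = b ^ 2 + 4 * (-(a * c)) by ring]
    omega
  omega

theorem krP_one (hDv : D = 2 ^ v * D₀) (hD₀ : Odd D₀) (h : b ^ 2 - 4 * a * c = (D : ℤ))
    {d : ℤ} (hd : (D : ℤ) ∣ d - 1) : krP v D₀ d = 1 := by
  have hm := disc_mod h
  have hJ : jacobiSym d D₀ = 1 := by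
    have h3 : (D₀ : ℤ) ∣ d - 1 := dvd_trans ⟨2 ^ v, by rw [hDv]; push_cast; ring⟩ hd
    have h4 : d % (D₀ : ℤ) = 1 % (D₀ : ℤ) := (Int.modEq_iff_dvd.2 h3).symm
    rw [jacobiSym.mod_left, h4, ← jacobiSym.mod_left, jacobiSym.one_left]
  obtain ⟨k, hk⟩ := hD₀
  rcases Nat.eq_zero_or_pos v with h0 | h0
  · subst h0
    have h5 : D₀ % 4 ≠ 3 := by
      rw [pow_zero, one_mul] at hDv
      omega
    simp [krP, h5, hJ]
  · have hv : 2 ≤ v := by
      by_contra hc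
      have : v = 1 := by omega
      subst this
      omega
    have h4 : (4 : ℤ) ∣ d - 1 := dvd_trans ⟨2 ^ (v - 2) * D₀, by
      rw [hDv]
      push_cast
      rw [show (4 : ℤ) = 2 ^ 2 by norm_num, ← mul_assoc, ← pow_add]
      congr 2
      omega⟩ hd
    have hd4 : (d : ZMod 4) = 1 := by
      have := (ZMod.intCast_zmod_eq_zero_iff_dvd (d - 1) 4).2 (by exact_mod_cast h4)
      push_cast at this
      exact sub_eq_zero.1 this
    have h8 : ZMod.χ₈ (d : ZMod 8) ^ v = 1 := by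
      rcases Nat.even_or_odd v with he | ho
      · obtain ⟨j, hj⟩ := he
        have hodd : d % 2 = 1 := by omega
        have : ZMod.χ₈ (d : ZMod 8) ^ 2 = 1 := by
          have h81 : d % 8 = 1 ∨ d % 8 = 3 ∨ d % 8 = 5 ∨ d % 8 = 7 := by omega
          rw [ZMod.χ₈_int_eq_if_mod_eight]
          rcases h81 with h | h | h | h <;> simp [h] <;> omega
        rw [hj, ← two_mul, pow_mul, this, one_pow]
      · have hv3 : 3 ≤ v := by
          obtain ⟨j, hj⟩ := ho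
          omega
        have h88 : (8 : ℤ) ∣ d - 1 := dvd_trans ⟨2 ^ (v - 3) * D₀, by
          rw [hDv]
          push_cast
          rw [show (8 : ℤ) = 2 ^ 3 by norm_num, ← mul_assoc, ← pow_add]
          congr 2
          omega⟩ hd
        have hd8 : (d : ZMod 8) = 1 := by
          have := (ZMod.intCast_zmod_eq_zero_iff_dvd (d - 1) 8).2 (by exact_mod_cast h88)
          push_cast at this
          exact sub_eq_zero.1 this
        rw [hd8, map_one, one_pow]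
    rw [krP, h8, hJ, hd4]
    split_ifs <;> simp

theorem krP_congr (hDv : D = 2 ^ v * D₀) (hv : v = 0) (h : b ^ 2 - 4 * a * c = (D : ℤ))
    {d e : ℤ} (hd : (D : ℤ) ∣ d - e) : krP v D₀ d = krP v D₀ e := by
  subst hv
  have hm := disc_mod h
  rw [pow_zero, one_mul] at hDv
  have h5 : D₀ % 4 ≠ 3 := by omega
  have hJ : jacobiSym d D₀ = jacobiSym e D₀ := by
    have h4 : d % (D₀ : ℤ) = e % (D₀ : ℤ) := (Int.modEq_iff_dvd.2 (by rwa [← hDv])).symm
    rw [jacobiSym.mod_left, h4, ← jacobiSym.mod_left]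
  simp [krP, h5, hJ]

/-! ### the slash law -/

/-- Hecke's theta series on the upper half plane -/
def H (a b c : ℤ) (D : ℕ) (u : ℝ) (s : ℤ) (f : ℤ × ℤ → ℂ) (τ : ℍ) : ℂ := hR a b c D u s f τ

theorem hR_add (s : ℤ) (w : ℂ) (k : ℤ) : hR a b c D u s f (w + k) = hR a b c D u s f w := by
  unfold hR
  refine tsum_congr fun x => ?_
  congr 1
  rw [show (2 * π * I * ((s * Qf a b c x : ℤ) : ℂ) * (w + k) : ℂ) =
    2 * π * I * ((s * Qf a b c x : ℤ) : ℂ) * w + ((s * Qf a b c x * k : ℤ) : ℂ) * (2 * π * I) by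
      push_cast; ring, Complex.exp_add, Complex.exp_int_mul_two_pi_mul_I, mul_one]

theorem H_T (s k : ℤ) : H a b c D u s f ∣[(1 : ℤ)] (ModularGroup.T ^ k) = H a b c D u s f := by
  funext τ
  have h2 : denom (ModularGroup.T ^ k : SL(2, ℤ)) τ = 1 := by
    rw [ModularGroup.denom_apply, ModularGroup.coe_T_zpow]
    simp
  rw [ModularForm.SL_slash_apply, UpperHalfPlane.modular_T_zpow_smul, h2, one_zpow, mul_one]
  show hR a b c D u s f _ = hR a b c D u s f _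
  rw [UpperHalfPlane.coe_vadd]
  rw [← hR_add s (τ : ℂ) k, add_comm]
  push_cast
  rfl

/-- the slash law, last entry odd -/
theorem slash_odd (hL : RLAW1Stmt) (hU : RUNFStmt) (ha : 0 < a)
    (hDv : D = 2 ^ v * D₀) (hD₀ : Odd D₀) (hsq : ¬ IsSquare D) (h : b ^ 2 - 4 * a * c = D)
    (hu : Unt a b D u A) (hm : 0 < m) (hf : Per m f) (hA : ∀ v, f (A v) = f v) {s : ℤ}
    (hs : s = 1 ∨ s = -1) (γ : SL(2, ℤ)) (hγ : ((D * m ^ 2 : ℕ) : ℤ) ∣ γ 1 0)
    (hodd : Odd (γ 1 1)) (τ : ℍ) :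
    (H a b c D u s f ∣[(1 : ℤ)] γ) τ =
      krP v D₀ (γ 1 1) * H a b c D u s (fun v => f ((γ 1 1) • v)) τ := by
  have hdet : γ 0 0 * γ 1 1 - γ 0 1 * γ 1 0 = 1 := by
    have := γ.det_coe
    rwa [Matrix.det_fin_two] at this
  have h1 := law hL hU ha hDv hD₀ hsq h hu hm hf hA hodd hdet hγ τ.im_pos
  have hden : denom γ τ = (γ 1 0 : ℂ) * τ + γ 1 1 := by
    rw [ModularGroup.denom_apply]
  have h2 : ((γ • τ : ℍ) : ℂ) = ((γ 0 0 : ℂ) * τ + γ 0 1) / ((γ 1 0 : ℂ) * τ + γ 1 1) := by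
    rw [UpperHalfPlane.coe_specialLinearGroup_apply]
    simp
  have hne : (γ 1 0 : ℂ) * τ + γ 1 1 ≠ 0 := by
    rw [← hden]; exact UpperHalfPlane.denom_ne_zero _ _
  have h3 : hR a b c D u s f (((γ 0 0 : ℂ) * τ + γ 0 1) / ((γ 1 0 : ℂ) * τ + γ 1 1)) =
      krP v D₀ (γ 1 1) * ((γ 1 0 : ℂ) * τ + γ 1 1) *
        hR a b c D u s (fun v => f ((γ 1 1) • v)) τ := by
    rcases hs with rfl | rfl
    · exact h1.1
    · exact h1.2
  rw [ModularForm.SL_slash_apply, hden]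
  simp only [H]
  rw [h2, h3, zpow_neg, zpow_one]
  field_simp

/-- the slash law under `Γ₀(D m²)` -/
theorem slash_law (hL : RLAW1Stmt) (hU : RUNFStmt) (ha : 0 < a)
    (hDv : D = 2 ^ v * D₀) (hD₀ : Odd D₀) (hsq : ¬ IsSquare D) (h : b ^ 2 - 4 * a * c = D)
    (hu : Unt a b D u A) (hm : 0 < m) (hf : Per m f) (hA : ∀ v, f (A v) = f v) {s : ℤ}
    (hs : s = 1 ∨ s = -1) (γ : SL(2, ℤ)) (hγ : ((D * m ^ 2 : ℕ) : ℤ) ∣ γ 1 0) (τ : ℍ) :
    (H a b c D u s f ∣[(1 : ℤ)] γ) τ =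
      krP v D₀ (γ 1 1) * H a b c D u s (fun v => f ((γ 1 1) • v)) τ := by
  rcases Int.even_or_odd (γ 1 1) with he | ho
  · have hdet : γ 0 0 * γ 1 1 - γ 0 1 * γ 1 0 = 1 := by
      have := γ.det_coe
      rwa [Matrix.det_fin_two] at this
    have hz : Odd (γ 1 0) := by
      rw [← Int.not_even_iff_odd]
      intro hc
      have h1 : Even (γ 0 0 * γ 1 1 - γ 0 1 * γ 1 0) := (he.mul_left _).sub (hc.mul_left _)
      rw [hdet] at h1
      exact absurd h1 (by decide)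
    have hv : v = 0 := by
      by_contra hv
      obtain ⟨k, hk⟩ := hγ
      have h2 : Even (γ 1 0) := by
        rw [hk, hDv]
        have : v = (v - 1) + 1 := by omega
        rw [this]
        refine ⟨2 ^ (v - 1) * D₀ * m ^ 2 * k, ?_⟩
        push_cast
        ring
      exact (Int.not_even_iff_odd.2 hz) h2
    have e10 : (γ * ModularGroup.T) 1 0 = γ 1 0 := by
      show (γ.1 * ModularGroup.T.1) 1 0 = γ.1 1 0
      rw [Matrix.mul_apply, Fin.sum_univ_two]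
      simp [ModularGroup.T]
    have e11 : (γ * ModularGroup.T) 1 1 = γ 1 0 + γ 1 1 := by
      show (γ.1 * ModularGroup.T.1) 1 1 = γ.1 1 0 + γ.1 1 1
      rw [Matrix.mul_apply, Fin.sum_univ_two]
      simp [ModularGroup.T]
    have key := slash_odd hL hU ha hDv hD₀ hsq h hu hm hf hA hs (γ * ModularGroup.T)
      (by rw [e10]; exact hγ) (by rw [e11]; exact hz.add_even he)
    have hD1 : (D : ℤ) ∣ γ 1 0 := dvd_trans ⟨(m : ℤ) ^ 2, by push_cast; ring⟩ hγ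
    have hk : krP v D₀ ((γ * ModularGroup.T) 1 1) = krP v D₀ (γ 1 1) := by
      refine krP_congr hDv hv h ?_
      rw [e11, add_sub_cancel_right]
      exact hD1
    have hF : (fun v => f (((γ * ModularGroup.T) 1 1) • v)) = fun v => f ((γ 1 1) • v) := by
      funext x
      obtain ⟨z, hz⟩ := dvd_trans (⟨(D : ℤ) * m, by push_cast; ring⟩ :
        (m : ℤ) ∣ ((D * m ^ 2 : ℕ) : ℤ)) hγ
      have h5 : ((γ * ModularGroup.T) 1 1) • x = (γ 1 1) • x + (m : ℤ) • (z • x) := by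
        rw [e11, smul_smul, ← hz, add_smul]
        abel
      rw [h5, hf]
    rw [hk, hF] at key
    have hsl : H a b c D u s f ∣[(1 : ℤ)] γ =
        (H a b c D u s f ∣[(1 : ℤ)] (γ * ModularGroup.T)) ∣[(1 : ℤ)] ModularGroup.T⁻¹ := by
      rw [← SlashAction.slash_mul, mul_assoc, mul_inv_cancel, mul_one]
    have hkey : H a b c D u s f ∣[(1 : ℤ)] (γ * ModularGroup.T) =
        (krP v D₀ (γ 1 1) : ℂ) • H a b c D u s (fun v => f ((γ 1 1) • v)) := by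
      funext τ
      rw [key]
      rfl
    have hT := H_T (a := a) (b := b) (c := c) (D := D) (u := u)
      (f := fun v => f ((γ 1 1) • v)) s (-1)
    rw [zpow_neg, zpow_one] at hT
    rw [hsl, hkey, ModularForm.SL_smul_slash, hT]
    rfl
  · exact slash_odd hL hU ha hDv hD₀ hsq h hu hm hf hA hs γ hγ ho τ

theorem inv_law (hL : RLAW1Stmt) (hU : RUNFStmt) (ha : 0 < a)
    (hDv : D = 2 ^ v * D₀) (hD₀ : Odd D₀) (hsq : ¬ IsSquare D) (h : b ^ 2 - 4 * a * c = D)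
    (hu : Unt a b D u A) (hm : 0 < m) (hf : Per m f) (hA : ∀ v, f (A v) = f v) {s : ℤ}
    (hs : s = 1 ∨ s = -1) (γ : SL(2, ℤ)) (hγ : γ ∈ Gamma1 (D * m ^ 2)) :
    H a b c D u s f ∣[(1 : ℤ)] γ = H a b c D u s f := by
  funext τ
  rw [Gamma1_mem] at hγ
  obtain ⟨-, h11, h10⟩ := hγ
  have h10' : ((D * m ^ 2 : ℕ) : ℤ) ∣ γ 1 0 := (ZMod.intCast_zmod_eq_zero_iff_dvd _ _).1 h10
  have h11' : ((D * m ^ 2 : ℕ) : ℤ) ∣ γ 1 1 - 1 := by
    rw [← ZMod.intCast_zmod_eq_zero_iff_dvd]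
    push_cast
    rw [h11, sub_self]
  rw [slash_law hL hU ha hDv hD₀ hsq h hu hm hf hA hs γ h10']
  have h3 : (D : ℤ) ∣ γ 1 1 - 1 := dvd_trans ⟨(m : ℤ) ^ 2, by push_cast; ring⟩ h11'
  have hF : (fun v => f ((γ 1 1) • v)) = f := by
    funext x
    obtain ⟨z, hz⟩ := dvd_trans (⟨(D : ℤ) * m, by push_cast; ring⟩ :
      (m : ℤ) ∣ ((D * m ^ 2 : ℕ) : ℤ)) h11'
    have h5 : (γ 1 1) • x = x + (m : ℤ) • (z • x) := by
      rw [smul_smul, ← hz, sub_smul, one_smul]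
      abel
    rw [h5, hf]
  rw [krP_one hDv hD₀ h h3, hF, Int.cast_one, one_mul]

theorem dia_law (hL : RLAW1Stmt) (hU : RUNFStmt) (ha : 0 < a)
    (hDv : D = 2 ^ v * D₀) (hD₀ : Odd D₀) (hsq : ¬ IsSquare D) (h : b ^ 2 - 4 * a * c = D)
    (hu : Unt a b D u A) (hm : 0 < m) (hf : Per m f) (hA : ∀ v, f (A v) = f v) {s : ℤ}
    (hs : s = 1 ∨ s = -1) (ℓ : PA (D * m ^ 2)) (τ : ℍ) :
    dFun (D * m ^ 2) 1 ℓ (H a b c D u s f) τ =
      krP v D₀ (ℓ.1 : ℤ) * H a b c D u s (fun v => f ((ℓ.1 : ℤ) • v)) τ := by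
  have h10 : (gd (D * m ^ 2) ℓ.1 ℓ.coprime) 1 0 = ((D * m ^ 2 : ℕ) : ℤ) := by
    simp [gd]
  have h11 : (gd (D * m ^ 2) ℓ.1 ℓ.coprime) 1 1 = (ℓ.1 : ℤ) := by
    simp [gd]
  have := slash_law hL hU ha hDv hD₀ hsq h hu hm hf hA hs (gd (D * m ^ 2) ℓ.1 ℓ.coprime)
    (by rw [h10]) τ
  rw [h11] at this
  exact this

/-- **[RMFT]** from the law of the kernel, the unfolding, holomorphy and boundedness. -/
theorem RMFT (hL : RLAW1Stmt) (hU : RUNFStmt) (hH : RHOLStmt) (hB : RBDDStmt) : RMFTStmt := by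
  intro a b c D v D₀ ha hDv hD₀ hsq h u A hu m hm f hf hA
  have hD0 : 0 < D := by
    rcases Nat.eq_zero_or_pos D with h0 | h0
    · exact absurd ⟨0, by simpa using h0⟩ hsq
    · exact h0
  have : NeZero (D * m ^ 2) := ⟨by positivity⟩
  exact ⟨H964.mk (k := (1 : ℤ)) (H a b c D u 1 f) (hH a b c D ha hsq h u A hu m hm f hf hA)
    (hB a b c D ha hsq h u A hu m hm f hf hA)
    (fun γ hγ => inv_law hL hU ha hDv hD₀ hsq h hu hm hf hA (Or.inl rfl) γ hγ), fun τ => rfl,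
    fun ℓ τ => dia_law hL hU ha hDv hD₀ hsq h hu hm hf hA (Or.inl rfl) ℓ τ⟩

end Vale.Agent.P022.H527
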